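import Crest.Agent.H0025.Zero

set_option autoImplicit false

namespace Crest.Agent.H0025

open Finset

def Rough (z g : ℕ) : Prop := ∀ p : ℕ, p.Prime → p ∣ g → z ≤ p

lemma rt_mono {a b : ℕ} (h : a ≤ b) : rt a ≤ rt b := by
  unfold rt; gcongr

lemma rt_pow_four (a : ℕ) : rt (a ^ 4) = a := by
  have h1 := rt_pow (a ^ 4)
  push_cast at h1
  have h2 : 0 ≤ rt (a ^ 4) := by unfold rt; positivity
  exact (pow_left_inj₀ h2 (Nat.cast_nonneg a) (by norm_num)).1 h1

lemma rt_one : rt 1 = 1 := by simpa using rt_pow_four 1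

open Classical in
lemma sum_rough {n w z : ℕ} (hn : 0 < n) (hw : #n.primeFactors ≤ w) (hw0 : 0 < w)
    (hz : (100 * w) ^ 4 ≤ z) :
    ∑ g ∈ n.divisors with (1 < g ∧ Rough z g), 1 / rt g ≤ 1 / 50 := by
  set G := {g ∈ n.divisors | 1 < g ∧ Rough z g} with hG
  set P := {p ∈ n.primeFactors | z ≤ p} with hP
  have hε : ∑ p ∈ P, 1 / rt p ≤ 1 / 100 := by
    have hw' : (0 : ℝ) < w := by exact_mod_cast hw0
    calc ∑ p ∈ P, 1 / rt p ≤ ∑ _p ∈ P, 1 / (100 * w : ℝ) := by
          refine sum_le_sum fun p hp => ?_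
          have h1 := rt_mono (hz.trans (mem_filter.1 hp).2)
          rw [rt_pow_four] at h1
          push_cast at h1
          exact one_div_le_one_div_of_le (by positivity) h1
      _ = #P * (1 / (100 * w : ℝ)) := by rw [sum_const, nsmul_eq_mul]
      _ ≤ w * (1 / (100 * w : ℝ)) := by
          gcongr
          exact (card_filter_le _ _).trans hw
      _ = 1 / 100 := by field_simp
  have h1G : 1 ∉ G := fun h => lt_irrefl _ (mem_filter.1 h).2.1
  have key : ∑ g ∈ G, 1 / rt g ≤ ∑ q ∈ P ×ˢ (insert 1 G), 1 / rt q.1 * (1 / rt q.2) := by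
    have hinj : Set.InjOn (fun g : ℕ => (g.minFac, g / g.minFac)) G := by
      intro a _ b _ hab
      simp only [Prod.mk.injEq] at hab
      rw [← Nat.mul_div_cancel' (Nat.minFac_dvd a), ← Nat.mul_div_cancel' (Nat.minFac_dvd b),
        hab.2, hab.1]
    calc ∑ g ∈ G, 1 / rt g = ∑ g ∈ G, 1 / rt g.minFac * (1 / rt (g / g.minFac)) := by
          refine sum_congr rfl fun g _ => ?_
          rw [div_mul_div_comm, ← rt_mul, Nat.mul_div_cancel' (Nat.minFac_dvd g), one_mul]
      _ = ∑ q ∈ G.image (fun g : ℕ => (g.minFac, g / g.minFac)), 1 / rt q.1 * (1 / rt q.2) := by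
          rw [sum_image hinj]
      _ ≤ _ := by
          apply sum_le_sum_of_subset_of_nonneg
          · intro q hq
            obtain ⟨g, hg, rfl⟩ := mem_image.1 hq
            obtain ⟨hg1, hg2, hg3⟩ := mem_filter.1 hg
            have hgn := Nat.dvd_of_mem_divisors hg1
            have hp := Nat.minFac_prime hg2.ne'
            have hd : g / g.minFac ∣ g := Nat.div_dvd_of_dvd (Nat.minFac_dvd g)
            refine mem_product.2 ⟨mem_filter.2 ⟨Nat.mem_primeFactors.2
              ⟨hp, (Nat.minFac_dvd g).trans hgn, hn.ne'⟩, hg3 _ hp (Nat.minFac_dvd g)⟩, ?_⟩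
            simp only
            by_cases h1 : g / g.minFac = 1
            · rw [h1]; exact mem_insert_self _ _
            · refine mem_insert_of_mem (mem_filter.2 ⟨Nat.mem_divisors.2 ⟨hd.trans hgn, hn.ne'⟩, ?_,
                fun p hp hpd => hg3 p hp (hpd.trans hd)⟩)
              have := Nat.pos_of_dvd_of_pos hd (by omega)
              omega
          · intro q _ _
            unfold rt; positivity
  rw [sum_product] at key
  simp only [← mul_sum, ← sum_mul] at key
  rw [sum_insert h1G, rt_one] at key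
  have h0 : 0 ≤ ∑ g ∈ G, 1 / rt g := sum_nonneg fun g _ => by unfold rt; positivity
  nlinarith

open Classical in
lemma sum_bad {D : Finset ℕ} (hD : D.Nonempty) {V w z : ℕ} (hV : ∀ d ∈ D, d ≤ V)
    (hw : ∀ n, 0 < n → n ≤ V → #n.primeFactors ≤ w) (hw0 : 0 < w) (hz : (100 * w) ^ 4 ≤ z) (X : ℕ) :
    ∑ g ∈ Ioc 1 X with (Rough z g ∧ ¬ Good D g), (1 : ℝ) / g ≤ X / #D + 1 / 50 := by
  have hDpos : (0 : ℝ) < #D := by exact_mod_cast hD.card_pos
  have h1 : ∑ g ∈ Ioc 1 X with (Rough z g ∧ ¬ Good D g), (1 : ℝ) / g ≤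
      ∑ g ∈ Ioc 1 X with Rough z g, (N D g * (1 / rt g)) / (#D : ℝ) ^ 2 := by
    calc _ ≤ ∑ g ∈ Ioc 1 X with (Rough z g ∧ ¬ Good D g), (N D g * (1 / rt g)) / (#D : ℝ) ^ 2 := by
          refine sum_le_sum fun g hg => ?_
          obtain ⟨hg1, -, hg3⟩ := mem_filter.1 hg
          have hg0 : 0 < g := by have := (mem_Ioc.1 hg1).1; omega
          have hr := rt_pos hg0
          unfold Good at hg3
          push Not at hg3
          rw [le_div_iff₀ (by positivity), ← rt_pow g]
          calc 1 / rt g ^ 4 * (#D : ℝ) ^ 2 ≤ 1 / rt g ^ 4 * (N D g * rt g ^ 3) := by gcongr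
            _ = _ := by field_simp
      _ ≤ _ := by
          apply sum_le_sum_of_subset_of_nonneg
          · intro g hg
            exact mem_filter.2 ⟨(mem_filter.1 hg).1, (mem_filter.1 hg).2.1⟩
          · intro g _ _
            unfold rt; positivity
  refine h1.trans ?_
  rw [← sum_div, div_le_iff₀ (by positivity)]
  have h2 : ∀ g, (N D g : ℝ) * (1 / rt g) =
      ∑ p ∈ D ×ˢ D, if p.1 % g = p.2 % g then 1 / rt g else 0 := by
    intro g
    rw [← sum_filter, sum_const, nsmul_eq_mul, N]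
  simp_rw [h2]
  rw [sum_comm]
  have h3 : ∀ p ∈ D ×ˢ D, (∑ g ∈ Ioc 1 X with Rough z g, if p.1 % g = p.2 % g then 1 / rt g else 0) ≤
      (if p.1 = p.2 then (X : ℝ) else 0) + 1 / 50 := by
    have aux : ∀ a b : ℕ, a < b → b ≤ V →
        (∑ g ∈ Ioc 1 X with Rough z g, if a % g = b % g then 1 / rt g else 0) ≤ 1 / 50 := by
      intro a b hab hb
      refine le_trans ?_ (sum_rough (n := b - a) (by omega) (hw _ (by omega) (by omega)) hw0 hz)
      rw [← sum_filter]
      apply sum_le_sum_of_subset_of_nonneg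
      · intro g hg
        obtain ⟨hg1, hg2⟩ := mem_filter.1 hg
        obtain ⟨hg3, hg4⟩ := mem_filter.1 hg1
        refine mem_filter.2 ⟨Nat.mem_divisors.2 ⟨?_, by omega⟩, (mem_Ioc.1 hg3).1, hg4⟩
        exact (Nat.modEq_iff_dvd' hab.le).1 hg2
      · intro g _ _
        unfold rt; positivity
    intro p hp
    obtain ⟨hp1, hp2⟩ := mem_product.1 hp
    rcases lt_trichotomy p.1 p.2 with h | h | h
    · rw [if_neg h.ne, zero_add]; exact aux _ _ h (hV _ hp2)
    · rw [if_pos h]
      calc _ ≤ ∑ g ∈ Ioc 1 X with Rough z g, (1 : ℝ) := by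
            refine sum_le_sum fun g hg => ?_
            have hg0 : 1 ≤ g := (mem_Ioc.1 (mem_filter.1 hg).1).1.le
            have := rt_mono hg0
            rw [rt_one] at this
            rw [if_pos (by rw [h]), div_le_one (by linarith)]
            exact this
        _ ≤ X := by
            rw [sum_const, nsmul_eq_mul, mul_one]
            exact_mod_cast (card_filter_le _ _).trans (by simp)
        _ ≤ _ := by linarith
    · rw [if_neg h.ne', zero_add]
      simp_rw [eq_comm (a := p.1 % _)]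
      exact aux _ _ h (hV _ hp1)
  refine (sum_le_sum h3).trans (le_of_eq ?_)
  rw [sum_add_distrib, sum_const, card_product, nsmul_eq_mul, sum_product]
  have h4 : ∀ d ∈ D, (∑ y ∈ D, if (d, y).1 = (d, y).2 then (X : ℝ) else 0) = X := by
    intro d hd
    simp [hd]
  rw [sum_congr rfl h4, sum_const, nsmul_eq_mul]
  push_cast
  field_simp

open Classical in
lemma card_bad {D : Finset ℕ} (hD : D.Nonempty) {V w z : ℕ} (hV : ∀ d ∈ D, d ≤ V)
    (hw : ∀ n, 0 < n → n ≤ V → #n.primeFactors ≤ w) (hw0 : 0 < w) (hz : (100 * w) ^ 4 ≤ z) (X : ℕ) :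
    (#{m ∈ Ioc 0 X | ∃ g, g ∣ m ∧ 1 < g ∧ Rough z g ∧ ¬ Good D g} : ℝ) ≤ X * (X / #D + 1 / 50) := by
  refine le_trans ?_ (mul_le_mul_of_nonneg_left (sum_bad hD hV hw hw0 hz X) (Nat.cast_nonneg X))
  have h1 : #{m ∈ Ioc 0 X | ∃ g, g ∣ m ∧ 1 < g ∧ Rough z g ∧ ¬ Good D g} ≤
      ∑ g ∈ Ioc 1 X with (Rough z g ∧ ¬ Good D g), X / g := by
    simp_rw [← Nat.Ioc_filter_dvd_card_eq_div]
    refine le_trans (card_le_card ?_) card_biUnion_le
    intro m hm
    obtain ⟨hm1, g, h1, h2, h3, h4⟩ := mem_filter.1 hm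
    have hm2 := mem_Ioc.1 hm1
    exact mem_biUnion.2 ⟨g, mem_filter.2 ⟨mem_Ioc.2 ⟨h2, (Nat.le_of_dvd hm2.1 h1).trans hm2.2⟩, h3, h4⟩,
      mem_filter.2 ⟨hm1, h1⟩⟩
  refine (Nat.cast_le.2 h1).trans ?_
  rw [Nat.cast_sum, mul_sum]
  refine sum_le_sum fun g _ => ?_
  rw [mul_one_div]
  exact Nat.cast_div_le

/-- smooth part -/
def sm (z m : ℕ) : ℕ := ∏ p ∈ Nat.primesBelow z, p ^ m.factorization p

lemma sm_pos (z m : ℕ) : 0 < sm z m :=
  prod_pos fun _ hp => pow_pos (Nat.prime_of_mem_primesBelow hp).pos _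

lemma exists_rough (z : ℕ) {m : ℕ} (hm : 0 < m) : ∃ m', m = sm z m * m' ∧ Rough z m' := by
  refine ⟨∏ p ∈ m.primeFactors with ¬ p < z, p ^ m.factorization p, ?_, ?_⟩
  · have h1 : sm z m = ∏ p ∈ m.primeFactors with p < z, p ^ m.factorization p := by
      unfold sm
      symm
      apply prod_subset
      · intro p hp
        obtain ⟨h1, h2⟩ := mem_filter.1 hp
        exact Nat.mem_primesBelow.2 ⟨h2, Nat.prime_of_mem_primeFactors h1⟩
      · intro p hp hp'
        have : p ∉ m.factorization.support := fun h =>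
          hp' (mem_filter.2 ⟨by simpa using h, (Nat.mem_primesBelow.1 hp).1⟩)
        rw [Finsupp.notMem_support_iff.1 this, pow_zero]
    rw [h1, prod_filter_mul_prod_filter_not]
    exact (Nat.prod_factorization_pow_eq_self hm.ne').symm
  · intro p hp hd
    obtain ⟨q, hq, hpq⟩ := (Prime.dvd_finsetProd_iff hp.prime _).1 hd
    obtain ⟨h1, h2⟩ := mem_filter.1 hq
    have := (Nat.prime_dvd_prime_iff_eq hp (Nat.prime_of_mem_primeFactors h1)).1
      (hp.dvd_of_dvd_pow hpq)
    omega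

lemma sum_log_sm (z X : ℕ) : ∑ m ∈ Ioc 0 X, Real.log (sm z m) =
    ∑ p ∈ Nat.primesBelow z, (X.factorial.factorization p : ℝ) * Real.log p := by
  have h1 : ∀ m, Real.log (sm z m) = ∑ p ∈ Nat.primesBelow z, (m.factorization p : ℝ) * Real.log p := by
    intro m
    unfold sm
    push_cast
    rw [Real.log_prod (fun p hp => by
      have := (Nat.prime_of_mem_primesBelow hp).pos
      positivity)]
    simp
  simp_rw [h1]
  rw [sum_comm]
  refine sum_congr rfl fun p _ => ?_
  rw [← sum_mul, ← prod_Ico_id_eq_factorial, Nat.factorization_prod (fun x hx => by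
    have := (mem_Ico.1 hx).1; omega), Finsupp.finsetSum_apply]
  push_cast
  rfl

lemma mertens {z : ℕ} (hz : 1 ≤ z) : ∑ p ∈ Nat.primesBelow z, Real.log p / p ≤ 2 * Real.log z := by
  have hz' : (0 : ℝ) < z := by exact_mod_cast hz
  have h1 : ∑ m ∈ Ioc 0 z, Real.log (sm z m) ≤ z * Real.log z := by
    calc _ ≤ ∑ _m ∈ Ioc 0 z, Real.log z := by
          refine sum_le_sum fun m hm => ?_
          obtain ⟨h1, h2⟩ := mem_Ioc.1 hm
          obtain ⟨m', h3, -⟩ := exists_rough z h1
          apply Real.log_le_log (by exact_mod_cast sm_pos z m)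
          exact_mod_cast (Nat.le_of_dvd h1 ⟨m', h3⟩).trans h2
      _ = _ := by simp
  rw [sum_log_sm] at h1
  have h2 : ∑ p ∈ Nat.primesBelow z, (z / 2 : ℝ) * (Real.log p / p) ≤
      ∑ p ∈ Nat.primesBelow z, (z.factorial.factorization p : ℝ) * Real.log p := by
    refine sum_le_sum fun p hp => ?_
    obtain ⟨hpz, hp⟩ := Nat.mem_primesBelow.1 hp
    have hp0 : (0 : ℝ) < p := by exact_mod_cast hp.pos
    have h3 : z / p ≤ z.factorial.factorization p := by
      rw [← prod_Ico_id_eq_factorial, Nat.factorization_prod (fun x hx => by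
        have := (mem_Ico.1 hx).1; omega), Finsupp.finsetSum_apply,
        ← Nat.Ioc_filter_dvd_card_eq_div, card_filter]
      refine sum_le_sum fun m hm => ?_
      split_ifs with h
      · exact (hp.dvd_iff_one_le_factorization (by have := (mem_Ioc.1 hm).1; omega)).1 h
      · exact Nat.zero_le _
    have h4 : z ≤ 2 * (z / p * p) := by
      have h5 := Nat.div_add_mod z p
      have h6 := Nat.mod_lt z hp.pos
      have h7 : 1 ≤ z / p := (Nat.le_div_iff_mul_le hp.pos).2 (by omega)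
      nlinarith
    have h5 : (z : ℝ) ≤ 2 * ((z.factorial.factorization p : ℝ) * p) := by
      exact_mod_cast h4.trans (by gcongr)
    have h6 : 0 ≤ Real.log p := Real.log_natCast_nonneg p
    calc (z / 2 : ℝ) * (Real.log p / p) ≤ ((z.factorial.factorization p : ℝ) * p) * (Real.log p / p) := by
          gcongr; linarith
      _ = _ := by field_simp
  rw [← mul_sum] at h2
  nlinarith

lemma card_sm {z : ℕ} (hz : 2 ≤ z) (X : ℕ) : (#{m ∈ Ioc 0 X | z ^ 40 < sm z m} : ℝ) ≤ X / 10 := by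
  have hz' : (1 : ℝ) < z := by exact_mod_cast hz
  have hl : 0 < Real.log z := Real.log_pos hz'
  have h1 : ∑ m ∈ Ioc 0 X, Real.log (sm z m) ≤ X * (4 * Real.log z) := by
    rw [sum_log_sm]
    calc _ ≤ ∑ p ∈ Nat.primesBelow z, (2 * X : ℝ) * (Real.log p / p) := by
          refine sum_le_sum fun p hp => ?_
          obtain ⟨-, hp⟩ := Nat.mem_primesBelow.1 hp
          have hp0 : (0 : ℝ) < p := by exact_mod_cast hp.pos
          have h3 := Nat.factorization_factorial_le_div_pred hp X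
          have h4 : X.factorial.factorization p * p ≤ 2 * X := by
            have h5 := Nat.div_mul_le_self X (p - 1)
            have h6 := hp.two_le
            obtain ⟨k, rfl⟩ : ∃ k, p = k + 2 := ⟨p - 2, by omega⟩
            have : k + 2 - 1 = k + 1 := by omega
            rw [this] at h3 h5
            nlinarith
          have h5 : (X.factorial.factorization p : ℝ) * p ≤ 2 * X := by exact_mod_cast h4
          have h6 : 0 ≤ Real.log p := Real.log_natCast_nonneg p
          calc (X.factorial.factorization p : ℝ) * Real.log p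
              = ((X.factorial.factorization p : ℝ) * p) * (Real.log p / p) := by field_simp
            _ ≤ _ := by gcongr
      _ ≤ _ := by
          rw [← mul_sum]
          have := mertens (z := z) (by omega)
          have h0 : (0 : ℝ) ≤ X := Nat.cast_nonneg X
          nlinarith
  have h2 : (#{m ∈ Ioc 0 X | z ^ 40 < sm z m} : ℝ) * (40 * Real.log z) ≤
      ∑ m ∈ Ioc 0 X, Real.log (sm z m) := by
    rw [← nsmul_eq_mul, ← sum_const]
    calc _ ≤ ∑ m ∈ Ioc 0 X with z ^ 40 < sm z m, Real.log (sm z m) := by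
          refine sum_le_sum fun m hm => ?_
          have h3 : ((z ^ 40 : ℕ) : ℝ) ≤ sm z m := by exact_mod_cast (mem_filter.1 hm).2.le
          have := Real.log_le_log (by positivity) h3
          push_cast at this
          rw [Real.log_pow] at this
          exact_mod_cast this
      _ ≤ _ := sum_le_sum_of_subset_of_nonneg (filter_subset _ _)
          fun m _ _ => Real.log_natCast_nonneg _
  have h3 := h2.trans h1
  have : (#{m ∈ Ioc 0 X | z ^ 40 < sm z m} : ℝ) * 40 ≤ X * 4 := by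
    apply le_of_mul_le_mul_right _ hl
    linarith
  linarith

/-- every `X` with `2 ≤ X ≤ #D / 100` is a sum of two nice numbers -/
theorem exists_split {D : Finset ℕ} (hD : D.Nonempty) {V w z : ℕ} (hV : ∀ d ∈ D, d ≤ V)
    (hw : ∀ n, 0 < n → n ≤ V → #n.primeFactors ≤ w) (hw0 : 0 < w) (hz : (100 * w) ^ 4 ≤ z)
    {X : ℕ} (hX : 2 ≤ X) (hXD : 100 * X ≤ #D) :
    ∃ m₁ m₂ : ℕ, m₁ + m₂ = X ∧ ∀ m ∈ ({m₁, m₂} : Finset ℕ), ∃ a m' : ℕ, m = a * m' ∧ a ≤ z ^ 40 ∧
      0 < m' ∧ ∀ g, g ∣ m' → 1 < g → Good D g := by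
  classical
  have hz2 : 2 ≤ z := by
    refine le_trans ?_ hz
    calc 2 ≤ (100 * 1) ^ 4 := by norm_num
      _ ≤ _ := by gcongr; exact hw0
  set B := {m ∈ Ioc 0 X | ∃ g, g ∣ m ∧ 1 < g ∧ Rough z g ∧ ¬ Good D g} ∪
    {m ∈ Ioc 0 X | z ^ 40 < sm z m} with hB
  have hDpos : (0 : ℝ) < #D := by exact_mod_cast hD.card_pos
  have hX' : (2 : ℝ) ≤ X := by exact_mod_cast hX
  have hBc : (#B : ℝ) ≤ X / 5 := by
    have h1 := card_bad hD hV hw hw0 hz X
    have h2 := card_sm hz2 X
    have h3 : (X : ℝ) / #D ≤ 1 / 100 := by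
      rw [div_le_div_iff₀ hDpos (by norm_num)]
      have : (100 : ℝ) * X ≤ #D := by exact_mod_cast hXD
      linarith
    have h4 : (#B : ℝ) ≤ #{m ∈ Ioc 0 X | ∃ g, g ∣ m ∧ 1 < g ∧ Rough z g ∧ ¬ Good D g} +
        #{m ∈ Ioc 0 X | z ^ 40 < sm z m} := by exact_mod_cast card_union_le _ _
    have h5 : (X : ℝ) * (X / #D + 1 / 50) ≤ X * (1 / 100 + 1 / 50) := by gcongr
    linarith
  have hex : ∃ m ∈ Ioo 0 X, m ∉ B ∪ B.image (fun m => X - m) := by
    apply exists_mem_notMem_of_card_lt_card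
    have h1 : #(B ∪ B.image (fun m => X - m)) ≤ #B + #B :=
      (card_union_le _ _).trans (Nat.add_le_add_left card_image_le _)
    have h2 : ((#B + #B : ℕ) : ℝ) < ((X - 1 : ℕ) : ℝ) := by
      rw [Nat.cast_sub (by omega)]; push_cast; linarith
    have h3 : #B + #B < X - 1 := by exact_mod_cast h2
    rw [Nat.card_Ioo]; omega
  obtain ⟨m, hm, hmB⟩ := hex
  obtain ⟨hm0, hmX⟩ := mem_Ioo.1 hm
  have good : ∀ m ∈ Ioc 0 X, m ∉ B → ∃ a m' : ℕ, m = a * m' ∧ a ≤ z ^ 40 ∧
      0 < m' ∧ ∀ g, g ∣ m' → 1 < g → Good D g := by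
    intro m hm hmB
    obtain ⟨m', h1, h2⟩ := exists_rough z (mem_Ioc.1 hm).1
    refine ⟨sm z m, m', h1, ?_, ?_, ?_⟩
    · by_contra h
      exact hmB (mem_union_right _ (mem_filter.2 ⟨hm, by omega⟩))
    · have := (mem_Ioc.1 hm).1
      rw [h1] at this
      exact Nat.pos_of_mul_pos_left this
    · intro g hg hg1
      by_contra h
      exact hmB (mem_union_left _ (mem_filter.2 ⟨hm, g, hg.trans (Dvd.intro_left _ h1.symm), hg1,
        fun p hp hpg => h2 p hp (hpg.trans hg), h⟩))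
  refine ⟨m, X - m, by omega, fun m' hm' => ?_⟩
  rcases mem_insert.1 hm' with rfl | h
  · exact good _ (mem_Ioc.2 ⟨hm0, hmX.le⟩) fun h => hmB (mem_union_left _ h)
  · rw [mem_singleton.1 h]
    exact good _ (mem_Ioc.2 ⟨by omega, by omega⟩) fun h =>
      hmB (mem_union_right _ (mem_image.2 ⟨_, h, by omega⟩))

end Crest.Agent.H0025
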