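import Mathlib

set_option autoImplicit false

namespace Crest.Agent.H0025

/-- `ρ` is a sum of at most `k` unit fractions (repetitions allowed) -/
def U (k : ℕ) (ρ : ℚ) : Prop :=
  ∃ s : Multiset ℕ, s.card ≤ k ∧ (∀ n ∈ s, 0 < n) ∧ (s.map fun n : ℕ => (1 : ℚ) / n).sum = ρ

lemma U.zero (k : ℕ) : U k 0 := ⟨0, by simp, by simp, by simp⟩

lemma U.one {n : ℕ} (hn : 0 < n) : U 1 (1 / n) := ⟨{n}, by simp, by simpa using hn, by simp⟩

lemma U.mono {k k' : ℕ} {ρ : ℚ} (h : U k ρ) (hk : k ≤ k') : U k' ρ := by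
  obtain ⟨s, h1, h2, h3⟩ := h
  exact ⟨s, h1.trans hk, h2, h3⟩

lemma U.add {k k' : ℕ} {ρ ρ' : ℚ} (h : U k ρ) (h' : U k' ρ') : U (k + k') (ρ + ρ') := by
  obtain ⟨s, h1, h2, h3⟩ := h
  obtain ⟨s', h1', h2', h3'⟩ := h'
  refine ⟨s + s', by simp; omega, ?_, by simp only [Multiset.map_add, Multiset.sum_add, h3, h3']⟩
  intro n hn
  rcases Multiset.mem_add.1 hn with h | h
  · exact h2 n h
  · exact h2' n h

lemma U.div {k : ℕ} {ρ : ℚ} (h : U k ρ) {c : ℕ} (hc : 0 < c) : U k (ρ / c) := by
  obtain ⟨s, h1, h2, h3⟩ := h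
  refine ⟨s.map (· * c), by simpa using h1, ?_, ?_⟩
  · intro n hn
    obtain ⟨m, hm, rfl⟩ := Multiset.mem_map.1 hn
    exact Nat.mul_pos (h2 m hm) hc
  · rw [← h3, Multiset.map_map, ← Multiset.sum_map_div]
    congr 1
    apply Multiset.map_congr rfl
    intro x _
    simp only [Function.comp]
    push_cast
    rw [div_div]

lemma U.mul {k k' : ℕ} {ρ ρ' : ℚ} (h : U k ρ) (h' : U k' ρ') : U (k * k') (ρ * ρ') := by
  obtain ⟨s, h1, h2, h3⟩ := h
  refine U.mono ?_ (Nat.mul_le_mul_right k' h1)
  subst h3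
  clear h1
  induction s using Multiset.induction_on with
  | empty => simpa using U.zero 0
  | cons a s ih =>
    have h4 := ih (fun n hn => h2 n (Multiset.mem_cons_of_mem hn))
    have h5 := h'.div (h2 a (Multiset.mem_cons_self a s))
    have := h5.add h4
    simp only [Multiset.card_cons, Multiset.map_cons, Multiset.sum_cons]
    convert this using 1 <;> ring

lemma U.sum {ι : Type} (s : Finset ι) (f : ι → ℚ) {k : ℕ} (h : ∀ i ∈ s, U k (f i)) :
    U (s.card * k) (∑ i ∈ s, f i) := by
  classical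
  induction s using Finset.induction_on with
  | empty => simpa using U.zero 0
  | insert a s ha ih =>
    rw [Finset.sum_insert ha, Finset.card_insert_of_notMem ha]
    have := (h a (Finset.mem_insert_self a s)).add (ih fun i hi => h i (Finset.mem_insert_of_mem hi))
    convert this using 1; ring

lemma U.of_dvd {d n : ℕ} (hn : 0 < n) (h : d ∣ n) : U 1 ((d : ℚ) / n) := by
  obtain ⟨e, rfl⟩ := h
  have hd : 0 < d := Nat.pos_of_mul_pos_right hn
  have he : 0 < e := Nat.pos_of_mul_pos_left hn
  have := U.one he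
  convert this using 1
  have : (d : ℚ) ≠ 0 := by positivity
  have : (e : ℚ) ≠ 0 := by positivity
  push_cast; field_simp

lemma U.base {s T k : ℕ} (hs : 0 < s) (hT : 0 < T) (h : ∀ c : ℕ, c < s → U k ((c : ℚ) / T)) (t : ℕ) :
    ∀ A : ℕ, A ≤ s ^ t → U (t * k + 1) ((A : ℚ) / (s ^ t * T)) := by
  induction t with
  | zero =>
    intro A hA
    simp only [pow_zero] at hA
    interval_cases A
    · simpa using U.zero 1
    · simpa using U.one hT
  | succ t ih =>
    intro A hA
    have h1 : A / s ≤ s ^ t := Nat.div_le_of_le_mul (by rw [pow_succ] at hA; linarith)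
    have h2 := (h (A % s) (Nat.mod_lt A hs)).div (pow_pos hs (t + 1))
    have h3 := (ih _ h1).add h2
    have h4 : (A : ℚ) = s * ((A / s : ℕ) : ℚ) + ((A % s : ℕ) : ℚ) := by
      exact_mod_cast (Nat.div_add_mod A s).symm
    convert h3 using 1
    · ring
    · have : (s : ℚ) ≠ 0 := by positivity
      have : (T : ℚ) ≠ 0 := by positivity
      rw [h4]
      generalize ((A / s : ℕ) : ℚ) = u
      generalize ((A % s : ℕ) : ℚ) = v
      push_cast; field_simp; ring

lemma U.small {Q r g : ℕ} (hQ : 0 < Q) (hg : g ≤ Q ^ r) :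
    U (r + 1) ((g : ℚ) / (Q ^ r * Q.factorial)) := by
  have := U.base hQ (Nat.factorial_pos Q) (k := 1) (fun c hc => by
    rcases Nat.eq_zero_or_pos c with rfl | h0
    · simpa using U.zero 1
    · exact U.of_dvd (Nat.factorial_pos Q) (Nat.dvd_factorial h0 hc.le)) r g hg
  simpa using this

lemma greedy (T b : ℕ) : ∀ (k a B N : ℕ), 0 < B → a ≤ b → a * N < B → T ≤ N ^ (2 ^ k) →
    B ≤ b * T ^ 2 → ∃ a' B' : ℕ, 0 < B' ∧ B' ≤ b * T ^ 2 ∧ a' * T ≤ B' ∧
      U k ((a : ℚ) / B - (a' : ℚ) / B') := by
  intro k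
  induction k with
  | zero =>
    intro a B N hB ha hN hT hBT
    refine ⟨a, B, hB, hBT, ?_, by simpa using U.zero 0⟩
    simp only [pow_zero, pow_one] at hT
    exact (Nat.mul_le_mul_left a hT).trans hN.le
  | succ k ih =>
    intro a B N hB ha hN hT hBT
    by_cases h : a * T ≤ B
    · exact ⟨a, B, hB, hBT, h, by simpa using U.zero _⟩
    push Not at h
    have ha0 : 0 < a := by
      rcases Nat.eq_zero_or_pos a with rfl | h0
      · simp at h
      · exact h0
    set n := B / a + 1 with hn
    have hn0 : 0 < n := Nat.succ_pos _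
    have h1 : B < a * n := Nat.lt_mul_div_succ B ha0
    have h2 : a * n ≤ B + a := by
      have := Nat.mul_div_le B a
      rw [hn]; nlinarith
    have h3 : n ≤ T := by
      have : B / a < T := Nat.div_lt_of_lt_mul h
      omega
    have h4 : N ≤ n := by
      have : N ≤ B / a := (Nat.le_div_iff_mul_le ha0).2 (by nlinarith)
      omega
    obtain ⟨a', B', g1, g2, g3, g4⟩ := ih (a * n - B) (B * n) (N * N) (Nat.mul_pos hB hn0)
      (by omega)
      (by
        calc (a * n - B) * (N * N) ≤ a * (N * n) := Nat.mul_le_mul (by omega) (Nat.mul_le_mul_left N h4)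
          _ = (a * N) * n := by ring
          _ < B * n := Nat.mul_lt_mul_of_pos_right hN hn0)
      (by rw [← pow_two, ← pow_mul, ← pow_succ']; exact hT)
      (by
        calc B * n ≤ (b * T) * T := Nat.mul_le_mul (h.le.trans (Nat.mul_le_mul_right T ha)) h3
          _ = b * T ^ 2 := by ring)
    refine ⟨a', B', g1, g2, g3, ?_⟩
    have := g4.add (U.one hn0)
    convert this using 1
    rw [Nat.cast_sub h1.le]
    have : (B : ℚ) ≠ 0 := by positivity
    have : (n : ℚ) ≠ 0 := by positivity
    push_cast; field_simp; ring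

lemma sum_nonneg' (s : Multiset ℕ) : 0 ≤ (s.map fun n : ℕ => (1 : ℚ) / n).sum :=
  Multiset.sum_nonneg fun x hx => by
    obtain ⟨m, _, rfl⟩ := Multiset.mem_map.1 hx
    positivity

/-- repetitions can be removed -/
lemma distinct : ∀ (k : ℕ) (ρ : ℚ), ρ < 1 → U k ρ →
    ∃ S : Finset ℕ, (∀ n ∈ S, 2 ≤ n) ∧ S.card ≤ k ∧ ∑ n ∈ S, (1 : ℚ) / n = ρ := by
  intro k
  induction k with
  | zero =>
    rintro ρ _ ⟨s, h1, -, h3⟩
    have : s = 0 := Multiset.card_eq_zero.1 (by omega)
    subst this
    exact ⟨∅, by simp, by simp, by simpa using h3⟩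
  | succ k ih =>
    rintro ρ hρ ⟨s, h1, h2, h3⟩
    by_cases hs : s = 0
    · subst hs
      exact ⟨∅, by simp, by simp, by simpa using h3⟩
    have hex : ∃ n : ℕ, 0 < n ∧ U k (ρ - 1 / n) := by
      obtain ⟨n, hn⟩ := Multiset.exists_mem_of_ne_zero hs
      obtain ⟨s', rfl⟩ := Multiset.exists_cons_of_mem hn
      refine ⟨n, h2 n hn, s', by simpa using h1, fun m hm => h2 m (Multiset.mem_cons_of_mem hm), ?_⟩
      simp only [Multiset.map_cons, Multiset.sum_cons] at h3
      linarith
    classical
    obtain ⟨hn0, hU⟩ := Nat.find_spec hex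
    have hmin := fun m => Nat.find_min hex (m := m)
    set n := Nat.find hex
    have hpos : (0 : ℚ) < 1 / n := by positivity
    have hn2 : 2 ≤ n := by
      by_contra h
      have : n = 1 := by omega
      obtain ⟨s', -, -, h⟩ := hU
      have h5 := sum_nonneg' s'
      rw [h, this] at h5
      simp at h5; linarith
    obtain ⟨S, g1, g2, g3⟩ := ih _ (by linarith) hU
    by_cases hnS : n ∈ S
    · exfalso
      have hE : U (k - 1) (ρ - 1 / n - 1 / n) := by
        refine ⟨(S.erase n).val, ?_, ?_, ?_⟩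
        · have := Finset.card_erase_of_mem hnS
          have h' : (S.erase n).val.card = (S.erase n).card := rfl
          omega
        · intro m hm
          have := g1 m (Finset.mem_of_mem_erase hm)
          omega
        · have := Finset.add_sum_erase S (fun n : ℕ => (1 : ℚ) / n) hnS
          have h' : ((S.erase n).val.map fun n : ℕ => (1 : ℚ) / n).sum = ∑ x ∈ S.erase n, (1 : ℚ) / x := rfl
          rw [h']; linarith
      have hk : 1 ≤ k := (Finset.card_pos.2 ⟨n, hnS⟩).trans_le g2
      rcases Nat.even_or_odd' n with ⟨m, hm | hm⟩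
      · apply hmin m (by omega)
        refine ⟨by omega, ?_⟩
        have hm0 : (m : ℚ) ≠ 0 := by
          have : 0 < m := by omega
          positivity
        convert hE.mono (Nat.sub_le k 1) using 1
        rw [hm]; push_cast; field_simp; ring
      · apply hmin (m + 1) (by omega)
        refine ⟨by omega, ?_⟩
        have := hE.add (U.one (n := n * (m + 1)) (by positivity))
        rw [Nat.sub_add_cancel hk] at this
        convert this using 1
        rw [hm]; push_cast; field_simp; ring
    · refine ⟨insert n S, ?_, ?_, ?_⟩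
      · intro m hm
        rcases Finset.mem_insert.1 hm with rfl | hm
        · exact hn2
        · exact g1 m hm
      · rw [Finset.card_insert_of_notMem hnS]; omega
      · rw [Finset.sum_insert hnS, g3]; ring

end Crest.Agent.H0025
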