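import Crest.Agent.H0025.Count
import Crest.Agent.H0025.Unit

set_option autoImplicit false

namespace Crest.Agent.H0025

open Finset

lemma U_good {S m : ℕ} (hS : 0 < S) (hm : 0 < m) (h : ∀ g, g ∣ m → 1 < g → Good S.divisors g) :
    U 12 ((m : ℚ) / (S : ℚ) ^ 2) := by
  obtain ⟨f, hf, M, hM⟩ := zero_sum S.divisors ⟨1, Nat.one_mem_divisors.2 hS.ne'⟩ hm h
  have hpos : ∀ i, 0 < (f i).1 * (f i).2 := fun i =>
    Nat.mul_pos (Nat.pos_of_mem_divisors (mem_product.1 (hf i)).1)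
      (Nat.pos_of_mem_divisors (mem_product.1 (hf i)).2)
  have hM0 : 0 < M := by
    have : 0 < ∑ i, (f i).1 * (f i).2 := sum_pos (fun i _ => hpos i) univ_nonempty
    rw [hM] at this
    exact Nat.pos_of_mul_pos_left this
  have h1 := (U.sum univ (fun i => (((f i).1 * (f i).2 : ℕ) : ℚ) / ((S * S : ℕ) : ℚ)) (k := 1)
    (fun i _ => U.of_dvd (Nat.mul_pos hS hS) (Nat.mul_dvd_mul
      (Nat.dvd_of_mem_divisors (mem_product.1 (hf i)).1)
      (Nat.dvd_of_mem_divisors (mem_product.1 (hf i)).2)))).div hM0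
  rw [← sum_div, ← Nat.cast_sum, hM] at h1
  simp only [card_univ, Fintype.card_fin, mul_one] at h1
  convert h1 using 1
  have : (M : ℚ) ≠ 0 := by positivity
  have : (S : ℚ) ≠ 0 := by positivity
  push_cast; field_simp

lemma card_primeFactors_le {n k : ℕ} (hn : 0 < n) (h : n ≤ 2 ^ k) : #n.primeFactors ≤ k := by
  have h1 : 2 ^ #n.primeFactors ≤ ∏ p ∈ n.primeFactors, p := by
    rw [← prod_const]
    exact prod_le_prod' fun p hp => (Nat.prime_of_mem_primeFactors hp).two_le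
  have h2 := Nat.le_of_dvd hn (Nat.prod_primeFactors_dvd n)
  exact (Nat.pow_le_pow_iff_right (by norm_num)).1 (h1.trans (h2.trans h))

/-- the special denominator -/
def T (Q : ℕ) : ℕ := Q ^ 480 * Q.factorial * primorial (Q ^ 2) ^ 2

lemma T_pos {Q : ℕ} (hQ : 0 < Q) : 0 < T Q := by
  unfold T
  have := primorial_pos (Q ^ 2)
  have := Nat.factorial_pos Q
  positivity

lemma digit {Q : ℕ} (hQ : 500 ≤ Q) {c : ℕ} (hc : 100 * c ≤ #(primorial (Q ^ 2)).divisors) :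
    U 11544 ((c : ℚ) / T Q) := by
  have hQ0 : 0 < Q := by omega
  rcases Nat.lt_or_ge c 2 with h | h
  · interval_cases c
    · simpa using U.zero _
    · simpa using (U.one (T_pos hQ0)).mono (by norm_num)
  have hS := primorial_pos (Q ^ 2)
  obtain ⟨m₁, m₂, h1, h2⟩ := exists_split (D := (primorial (Q ^ 2)).divisors)
    ⟨1, Nat.one_mem_divisors.2 hS.ne'⟩ (V := 2 ^ (2 * Q ^ 2)) (w := 2 * Q ^ 2) (z := Q ^ 12)
    (fun d hd => (Nat.divisor_le hd).trans ((primorial_le_four_pow _).trans (by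
      rw [pow_mul]; norm_num)))
    (fun n hn hn' => card_primeFactors_le hn hn') (by positivity)
    (by
      calc (100 * (2 * Q ^ 2)) ^ 4 ≤ (Q * Q ^ 2) ^ 4 := by
            apply Nat.pow_le_pow_left; nlinarith [Nat.zero_le (Q ^ 2)]
        _ = Q ^ 12 := by ring) h hc
  have key : ∀ m ∈ ({m₁, m₂} : Finset ℕ), U 5772 ((m : ℚ) / T Q) := by
    intro m hm
    obtain ⟨a, m', rfl, g1, g2, g3⟩ := h2 m hm
    have := (U.small hQ0 (r := 480) (g := a) (by rwa [← pow_mul] at g1)).mul (U_good hS g2 g3)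
    convert this using 1
    unfold T
    push_cast
    rw [div_mul_div_comm]
  have := (key m₁ (by simp)).add (key m₂ (by simp))
  convert this using 1
  rw [← h1]; push_cast; ring

lemma T_le {Q : ℕ} (hQ : 500 ≤ Q) : T Q ≤ 32 ^ (Q ^ 2) := by
  have h1 : Q ^ 2 ≤ 2 ^ Q := by
    have : ∀ n, 4 ≤ n → n ^ 2 ≤ 2 ^ n := by
      intro n hn
      induction n, hn using Nat.le_induction with
      | base => norm_num
      | succ n hn ih => rw [pow_succ 2 n]; nlinarith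
    exact this Q (by omega)
  have h2 : Q ^ 480 * Q.factorial ≤ 2 ^ (Q ^ 2) := by
    calc Q ^ 480 * Q.factorial ≤ Q ^ Q * Q ^ Q :=
          Nat.mul_le_mul (Nat.pow_le_pow_right (by omega) (by omega)) (Nat.factorial_le_pow Q)
      _ = (Q ^ 2) ^ Q := by ring
      _ ≤ (2 ^ Q) ^ Q := Nat.pow_le_pow_left h1 Q
      _ = 2 ^ (Q ^ 2) := by rw [← pow_mul, pow_two]
  calc T Q ≤ 2 ^ (Q ^ 2) * (4 ^ (Q ^ 2)) ^ 2 :=
        Nat.mul_le_mul h2 (Nat.pow_le_pow_left (primorial_le_four_pow _) 2)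
    _ = 32 ^ (Q ^ 2) := by
        rw [← pow_mul, mul_comm (Q ^ 2) 2, pow_mul, ← mul_pow]; norm_num

lemma pi_lower {Q : ℕ} (hQ : 500 ≤ Q) :
    Q ^ 2 ≤ 2 * (Nat.log 2 (Q ^ 2) + 1) * Nat.primeCounting (Q ^ 2) := by
  have hQ' : (500 : ℝ) ≤ Q := by exact_mod_cast hQ
  have h1 := Chebyshev.pi_ge (Q ^ 2)
  have hY : (1 : ℝ) < ((Q ^ 2 : ℕ) : ℝ) := by push_cast; nlinarith
  have hl := Real.log_pos hY
  rw [div_le_iff₀ hl] at h1
  have h2 : Real.log ((Q ^ 2 : ℕ) : ℝ) ≤ ((Nat.log 2 (Q ^ 2) + 1 : ℕ) : ℝ) := by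
    have h3 : ((Q ^ 2 : ℕ) : ℝ) ≤ ((2 ^ (Nat.log 2 (Q ^ 2) + 1) : ℕ) : ℝ) := by
      exact_mod_cast (Nat.lt_pow_succ_log_self (by norm_num) _).le
    have h4 := Real.log_le_log (by linarith) h3
    rw [Nat.cast_pow 2, Real.log_pow] at h4
    have h5 : Real.log ((2 : ℕ) : ℝ) ≤ 1 := by
      have := Real.log_two_lt_d9; push_cast; linarith
    exact h4.trans (mul_le_of_le_one_right (Nat.cast_nonneg _) h5)
  have h3 : Real.log (((Q ^ 2 : ℕ) : ℝ) + 1) ≤ 4 * Q := by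
    have h4 : ((Q ^ 2 : ℕ) : ℝ) + 1 ≤ (2 * Q) ^ 2 := by push_cast; nlinarith
    have h5 := Real.log_le_log (by linarith) h4
    rw [Real.log_pow] at h5
    have h6 := Real.log_le_sub_one_of_pos (x := 2 * Q) (by linarith)
    push_cast at h5 ⊢
    linarith
  have h4 := Real.log_two_gt_d9
  have h5 : ((Q ^ 2 : ℕ) : ℝ) / 2 ≤ (Nat.primeCounting (Q ^ 2) : ℝ) * ((Nat.log 2 (Q ^ 2) + 1 : ℕ) : ℝ) := by
    refine le_trans ?_ (h1.trans (mul_le_mul_of_nonneg_left h2 (Nat.cast_nonneg _)))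
    push_cast at h3 ⊢
    nlinarith
  have : ((Q ^ 2 : ℕ) : ℝ) ≤ ((2 * (Nat.log 2 (Q ^ 2) + 1) * Nat.primeCounting (Q ^ 2) : ℕ) : ℝ) := by
    push_cast at h5 ⊢; linarith
  exact_mod_cast this

lemma s_pow {Q : ℕ} (hQ : 500 ≤ Q) :
    2 ^ (30 * Q ^ 2) ≤ (#(primorial (Q ^ 2)).divisors / 100 + 1) ^ (120 * (Nat.log 2 (Q ^ 2) + 1)) := by
  have h1 := pi_lower hQ
  have h2 : 2 ^ Nat.primeCounting (Q ^ 2) ≤ #(primorial (Q ^ 2)).divisors := by
    rw [Nat.card_divisors (primorial_ne_zero _), ← Nat.primesLE_card_eq_primeCounting,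
      ← primeFactors_primorial, ← prod_const]
    refine prod_le_prod' fun p hp => ?_
    have : (primorial (Q ^ 2)).factorization p ≠ 0 := Finsupp.mem_support_iff.1 (by simpa using hp)
    omega
  have h3 : Nat.log 2 (Q ^ 2) < 2 * Q := by
    apply Nat.log_lt_of_lt_pow (by positivity)
    rw [mul_comm, pow_mul]
    exact Nat.pow_lt_pow_left Nat.lt_two_pow_self (by norm_num)
  generalize Nat.log 2 (Q ^ 2) = l at *
  generalize Nat.primeCounting (Q ^ 2) = π at *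
  generalize #(primorial (Q ^ 2)).divisors = d at *
  have h4 : 7 ≤ π := by
    by_contra h
    have : π ≤ 6 := by omega
    nlinarith
  obtain ⟨u, rfl⟩ := Nat.exists_eq_add_of_le h4
  have h5 : 2 ^ u ≤ d / 100 + 1 := by
    rw [pow_add] at h2
    omega
  calc 2 ^ (30 * Q ^ 2) ≤ 2 ^ (u * (120 * (l + 1))) := by
        apply Nat.pow_le_pow_right (by norm_num)
        nlinarith
    _ = (2 ^ u) ^ (120 * (l + 1)) := by rw [← pow_mul]
    _ ≤ _ := Nat.pow_le_pow_left h5 _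

lemma main_aux {Q : ℕ} (hQ : 500 ≤ Q) {a b : ℕ} (h1 : 32 ^ (Q ^ 2) ≤ b) (h2 : b < 32 ^ ((Q + 1) ^ 2))
    (hab : a < b) : U (3000000 * (Nat.log 2 (Q ^ 2) + 1)) ((a : ℚ) / b) := by
  have hQ0 : 0 < Q := by omega
  have hT := T_pos hQ0
  have hTb := (T_le hQ).trans h1
  have hb0 : 0 < b := by omega
  have hT2 : 2 ≤ T Q := by
    unfold T
    have := primorial_pos (Q ^ 2)
    have := Nat.factorial_pos Q
    calc 2 ≤ Q ^ 480 * 1 * 1 := by
          rw [mul_one, mul_one]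
          exact le_trans (by omega) (Nat.le_self_pow (by norm_num) Q)
      _ ≤ _ := by gcongr <;> first | omega | exact Nat.one_le_pow _ _ (by omega)
  set l := Nat.log 2 (Q ^ 2) + 1 with hl
  have hl2 : Q ^ 2 < 2 ^ l := Nat.lt_pow_succ_log_self (by norm_num) _
  have hTk : T Q ≤ 2 ^ (2 ^ (l + 3)) := by
    refine (T_le hQ).trans ?_
    rw [show 32 = 2 ^ 5 by norm_num, ← pow_mul]
    apply Nat.pow_le_pow_right (by norm_num)
    rw [pow_add]; omega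
  have hgreedy : ∃ a' B' : ℕ, 0 < B' ∧ B' ≤ b * T Q ^ 2 ∧ a' * T Q ≤ B' ∧
      U (l + 4) ((a : ℚ) / b - (a' : ℚ) / B') := by
    by_cases h : a * 2 < b
    · obtain ⟨a', B', g1, g2, g3, g4⟩ := greedy (T Q) b (l + 3) a b 2 hb0 hab.le h hTk
        (Nat.le_mul_of_pos_right _ (by positivity))
      exact ⟨a', B', g1, g2, g3, g4.mono (by omega)⟩
    · obtain ⟨a', B', g1, g2, g3, g4⟩ := greedy (T Q) b (l + 3) (a * 2 - b) (b * 2) 2 (by omega)
        (by omega) (by omega) hTk (Nat.mul_le_mul_left b (by nlinarith))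
      refine ⟨a', B', g1, g2, g3, ?_⟩
      have := g4.add (U.one (n := 2) (by norm_num))
      convert this using 1
      rw [Nat.cast_sub (by omega)]
      have : (b : ℚ) ≠ 0 := by positivity
      push_cast; field_simp; ring
  obtain ⟨a', B', g1, g2, g3, g4⟩ := hgreedy
  have hs := s_pow hQ
  rw [← hl] at hs
  set s := #(primorial (Q ^ 2)).divisors / 100 + 1 with hsdef
  have hs0 : 0 < s := Nat.succ_pos _
  have hbase := U.base hs0 hT (k := 11544) (fun c hc => digit hQ (by omega)) (120 * l)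
  have hB : B' ≤ s ^ (120 * l) := by
    refine g2.trans (le_trans ?_ hs)
    calc b * T Q ^ 2 ≤ b * b ^ 2 := by gcongr
      _ = b ^ 3 := by ring
      _ ≤ (32 ^ ((Q + 1) ^ 2)) ^ 3 := by gcongr
      _ = 2 ^ (15 * (Q + 1) ^ 2) := by
          rw [show 32 = 2 ^ 5 by norm_num, ← pow_mul, ← pow_mul]; congr 1; ring
      _ ≤ _ := Nat.pow_le_pow_right (by norm_num) (by nlinarith)
  have k1 := hbase (a' * (s ^ (120 * l) * T Q) / B') (by
    apply Nat.div_le_of_le_mul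
    calc a' * (s ^ (120 * l) * T Q) = (a' * T Q) * s ^ (120 * l) := by ring
      _ ≤ _ := Nat.mul_le_mul_right _ g3)
  have k2 := (hbase (a' * (s ^ (120 * l) * T Q) % B') ((Nat.mod_lt _ g1).le.trans hB)).div g1
  have k3 := g4.add (k1.add k2)
  have h4 : (a' : ℚ) * (s ^ (120 * l) * T Q) =
      B' * ((a' * (s ^ (120 * l) * T Q) / B' : ℕ) : ℚ) + ((a' * (s ^ (120 * l) * T Q) % B' : ℕ) : ℚ) := by
    exact_mod_cast (Nat.div_add_mod _ B').symm
  refine U.mono ?_ (show l + 4 + (120 * l * 11544 + 1 + (120 * l * 11544 + 1)) ≤ 3000000 * l by omega)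
  convert k3 using 1
  generalize ((a' * (s ^ (120 * l) * T Q) / B' : ℕ) : ℚ) = u at *
  generalize ((a' * (s ^ (120 * l) * T Q) % B' : ℕ) : ℚ) = v at *
  have hW : (s : ℚ) ^ (120 * l) * T Q ≠ 0 :=
    mul_ne_zero (pow_ne_zero _ (Nat.cast_ne_zero.2 hs0.ne')) (Nat.cast_ne_zero.2 hT.ne')
  generalize (s : ℚ) ^ (120 * l) * T Q = W at *
  have : (B' : ℚ) ≠ 0 := by positivity
  have h5 : (a' : ℚ) / B' = u / W + v / W / B' := by
    field_simp; linarith
  rw [h5]; ring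

theorem main : ∃ C : ℝ, ∃ b₀ : ℕ, ∀ (a b : ℕ), b₀ ≤ b → 1 ≤ a → a < b →
      ∃ S : Finset ℕ, (∀ n ∈ S, 2 ≤ n) ∧ (S.card : ℝ) ≤ C * Real.log (Real.log (b : ℝ)) ∧
        ∑ n ∈ S, (1 : ℚ) / (n : ℚ) = (a : ℚ) / (b : ℚ) := by
  obtain ⟨b₀, hb₀⟩ : ∃ b₀ : ℕ, ∀ b, b₀ ≤ b → 500 * 500 ≤ Nat.log 32 b := by
    generalize 500 * 500 = k
    exact ⟨32 ^ k, fun b hb => Nat.le_log_of_pow_le (by norm_num) hb⟩
  refine ⟨9000000, b₀, fun a b hb _ hab => ?_⟩
  have hb0 : b ≠ 0 := by omega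
  have hQ : 500 ≤ Nat.sqrt (Nat.log 32 b) := Nat.le_sqrt.2 (hb₀ b hb)
  have h1 : 32 ^ (Nat.sqrt (Nat.log 32 b) ^ 2) ≤ b :=
    (Nat.pow_le_pow_right (by norm_num) (Nat.sqrt_le' _)).trans (Nat.pow_log_le_self 32 hb0)
  have h2 : b < 32 ^ ((Nat.sqrt (Nat.log 32 b) + 1) ^ 2) :=
    (Nat.lt_pow_succ_log_self (by norm_num) b).trans_le
      (Nat.pow_le_pow_right (by norm_num) (Nat.lt_succ_sqrt' _))
  generalize Nat.sqrt (Nat.log 32 b) = Q at *
  have hU := main_aux hQ h1 h2 hab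
  have hb' : (0 : ℚ) < b := by positivity
  obtain ⟨S, g1, g2, g3⟩ := distinct _ _ (by rw [div_lt_one hb']; exact_mod_cast hab) hU
  refine ⟨S, g1, ?_, g3⟩
  have hQ' : (500 : ℝ) ≤ Q := by exact_mod_cast hQ
  have hY : ((Q ^ 2 : ℕ) : ℝ) ≤ Real.log b := by
    have h3 : ((32 ^ (Q ^ 2) : ℕ) : ℝ) ≤ b := by exact_mod_cast h1
    have h4 := Real.log_le_log (by positivity) h3
    rw [Nat.cast_pow 32, Real.log_pow] at h4
    have h5 : 1 ≤ Real.log ((32 : ℕ) : ℝ) := by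
      rw [Real.le_log_iff_exp_le (by norm_num)]
      have := Real.exp_one_lt_d9; push_cast; linarith
    exact (le_mul_of_one_le_right (Nat.cast_nonneg _) h5).trans h4
  have hY0 : (0 : ℝ) < ((Q ^ 2 : ℕ) : ℝ) := by positivity
  have h6 := Real.log_le_log hY0 hY
  have h7 : 1 ≤ Real.log ((Q ^ 2 : ℕ) : ℝ) := by
    rw [Real.le_log_iff_exp_le hY0]
    have := Real.exp_one_lt_d9; push_cast; nlinarith
  have h8 : (Nat.log 2 (Q ^ 2) : ℝ) ≤ 2 * Real.log ((Q ^ 2 : ℕ) : ℝ) := by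
    have h3 : ((2 ^ Nat.log 2 (Q ^ 2) : ℕ) : ℝ) ≤ ((Q ^ 2 : ℕ) : ℝ) := by
      exact_mod_cast Nat.pow_log_le_self 2 (by positivity)
    have h4 := Real.log_le_log (by positivity) h3
    rw [Nat.cast_pow 2, Real.log_pow] at h4
    have h5 := Real.log_two_gt_d9
    push_cast at h4 ⊢
    have : (0 : ℝ) ≤ Nat.log 2 (Q ^ 2) := Nat.cast_nonneg _
    nlinarith
  have h9 : (S.card : ℝ) ≤ ((3000000 * (Nat.log 2 (Q ^ 2) + 1) : ℕ) : ℝ) := by exact_mod_cast g2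
  push_cast at h9 h8 h7 h6 ⊢
  linarith

end Crest.Agent.H0025
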