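import Mathlib

set_option autoImplicit false

namespace Crest.Agent.H0025

open Finset Complex

/-- additive character -/
noncomputable def e (g : ℕ) (n : ℤ) : ℂ := Complex.exp (2 * Real.pi * I * (n / g))

lemma e_add (g : ℕ) (a b : ℤ) : e g (a + b) = e g a * e g b := by
  unfold e; rw [← Complex.exp_add]; congr 1; push_cast; ring

lemma e_zero (g : ℕ) : e g 0 = 1 := by simp [e]

lemma e_mul_nat (g : ℕ) (x : ℕ) (n : ℤ) : e g (x * n) = e g n ^ x := by
  unfold e; rw [← Complex.exp_nat_mul]; congr 1; push_cast; ring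

lemma e_sum {ι : Type} (g : ℕ) (s : Finset ι) (f : ι → ℤ) : e g (∑ i ∈ s, f i) = ∏ i ∈ s, e g (f i) := by
  classical
  induction s using Finset.induction_on with
  | empty => simp [e_zero]
  | insert a s ha ih => rw [sum_insert ha, prod_insert ha, e_add, ih]

lemma e_eq_one_iff {g : ℕ} (hg : 0 < g) (n : ℤ) : e g n = 1 ↔ (g : ℤ) ∣ n := by
  have hg' : (g : ℂ) ≠ 0 := by exact_mod_cast hg.ne'
  have h2 : (2 * Real.pi * I : ℂ) ≠ 0 := Complex.two_pi_I_ne_zero
  unfold e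
  rw [Complex.exp_eq_one_iff]
  constructor
  · rintro ⟨k, hk⟩
    refine ⟨k, ?_⟩
    rw [mul_comm (k : ℂ)] at hk
    have := mul_left_cancel₀ h2 hk
    rw [div_eq_iff hg'] at this
    have h3 : (n : ℂ) = ((g * k : ℤ) : ℂ) := by push_cast; rw [this]; ring
    exact_mod_cast h3
  · rintro ⟨k, rfl⟩
    exact ⟨k, by push_cast; field_simp⟩

lemma sum_e {g : ℕ} (hg : 0 < g) (n : ℤ) :
    ∑ x ∈ range g, e g (x * n) = if (g : ℤ) ∣ n then (g : ℂ) else 0 := by
  simp_rw [e_mul_nat]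
  split_ifs with h
  · simp [(e_eq_one_iff hg n).2 h]
  · have h1 : e g n ≠ 1 := fun h' => h ((e_eq_one_iff hg n).1 h')
    rw [geom_sum_eq h1, ← e_mul_nat, (e_eq_one_iff hg _).2 (Dvd.intro _ rfl)]
    simp

lemma e_congr {g : ℕ} (hg : 0 < g) {a b : ℤ} (h : (g : ℤ) ∣ a - b) : e g a = e g b := by
  have := (e_eq_one_iff hg _).2 h
  have h2 := e_add g (a - b) b
  rw [this, sub_add_cancel, one_mul] at h2
  exact h2

lemma conj_e (g : ℕ) (n : ℤ) : (starRingEnd ℂ) (e g n) = e g (-n) := by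
  unfold e; rw [← Complex.exp_conj]; congr 1
  simp [Complex.conj_ofReal, map_ofNat]
  ring

lemma e_reduce {h g : ℕ} (hh : 0 < h) (n : ℤ) : e (h * g) (h * n) = e g n := by
  have : (h : ℂ) ≠ 0 := by exact_mod_cast hh.ne'
  unfold e; congr 2; push_cast
  rw [mul_div_mul_left _ _ this]

/-- number of colliding pairs modulo `g` -/
def N (D : Finset ℕ) (g : ℕ) : ℕ := #{p ∈ D ×ˢ D | p.1 % g = p.2 % g}

lemma sum_sq_fiber (D : Finset ℕ) {g : ℕ} (hg : 0 < g) :
    ∑ x ∈ range g, (#{d ∈ D | d % g = x}) ^ 2 = N D g := by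
  unfold N
  rw [card_eq_sum_card_fiberwise (f := fun p : ℕ × ℕ => p.1 % g) (t := range g)
    (fun p _ => by simpa using Nat.mod_lt _ hg)]
  refine sum_congr rfl fun x _ => ?_
  rw [pow_two, ← card_product]
  congr 1
  ext p
  simp only [mem_product, mem_filter]
  constructor
  · rintro ⟨⟨h1, h2⟩, h3, h4⟩
    exact ⟨⟨⟨h1, h3⟩, h2.trans h4.symm⟩, h2⟩
  · rintro ⟨⟨⟨h1, h2⟩, h3⟩, h4⟩
    exact ⟨⟨h1, h4⟩, h2, h3.symm.trans h4⟩

lemma parseval (D : Finset ℕ) {g : ℕ} (hg : 0 < g) {t : ℕ} (ht : Nat.Coprime g t) :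
    ∑ x ∈ range g, ‖∑ d ∈ D, e g (x * (t * d))‖ ^ 2 = g * N D g := by
  have h1 : ∀ x : ℕ, ((‖∑ d ∈ D, e g (x * (t * d))‖ ^ 2 : ℝ) : ℂ) =
      ∑ p ∈ D ×ˢ D, e g (x * (t * (p.1 - p.2))) := by
    intro x
    push_cast
    rw [← Complex.mul_conj', map_sum, sum_mul_sum, sum_product]
    refine sum_congr rfl fun d _ => sum_congr rfl fun d' _ => ?_
    rw [conj_e, ← e_add]; congr 1; ring
  apply Complex.ofReal_injective
  rw [Complex.ofReal_sum]
  simp_rw [h1]
  rw [sum_comm]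
  simp_rw [sum_e hg]
  have h2 : ∀ p : ℕ × ℕ, ((g : ℤ) ∣ (t : ℤ) * ((p.1 : ℤ) - p.2)) ↔ p.1 % g = p.2 % g := by
    intro p
    rw [show (p.1 % g = p.2 % g) = (p.1 ≡ p.2 [MOD g]) from rfl, Nat.ModEq.comm, Nat.modEq_iff_dvd]
    exact ⟨fun h => (Nat.isCoprime_iff_coprime.2 ht).dvd_of_dvd_mul_left h, fun h => h.mul_left _⟩
  simp_rw [h2]
  rw [← sum_filter]
  simp [N, mul_comm]

lemma bilinear (D : Finset ℕ) {g : ℕ} (hg : 0 < g) {t : ℕ} (ht : Nat.Coprime g t) :
    ‖∑ p ∈ D ×ˢ D, e g (t * (p.1 * p.2))‖ ^ 2 ≤ g * (N D g : ℝ) ^ 2 := by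
  have h1 : ∑ p ∈ D ×ˢ D, e g (t * (p.1 * p.2)) =
      ∑ x ∈ range g, (#{d ∈ D | d % g = x} : ℂ) * ∑ d ∈ D, e g (x * (t * d)) := by
    rw [sum_product, ← sum_fiberwise_of_maps_to (g := fun d => d % g) (t := range g)
      (fun d _ => by simpa using Nat.mod_lt _ hg)]
    refine sum_congr rfl fun x _ => ?_
    rw [← nsmul_eq_mul, ← sum_const]
    refine sum_congr rfl fun d hd => sum_congr rfl fun d' _ => ?_
    apply e_congr hg
    have hx := (mem_filter.1 hd).2
    have : (d : ℤ) = g * ((d / g : ℕ) : ℤ) + x := by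
      rw [← hx]; exact_mod_cast (Nat.div_add_mod d g).symm
    refine ⟨t * ((d / g : ℕ) : ℤ) * d', ?_⟩
    simp only
    generalize ((d / g : ℕ) : ℤ) = u at this
    rw [this]; ring
  rw [h1]
  have h2 : ‖∑ x ∈ range g, (#{d ∈ D | d % g = x} : ℂ) * ∑ d ∈ D, e g (x * (t * d))‖ ≤
      ∑ x ∈ range g, (#{d ∈ D | d % g = x} : ℝ) * ‖∑ d ∈ D, e g (x * (t * d))‖ := by
    refine (norm_sum_le _ _).trans (le_of_eq ?_)
    refine sum_congr rfl fun x _ => ?_
    rw [norm_mul, Complex.norm_natCast]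
  refine (pow_le_pow_left₀ (norm_nonneg _) h2 2).trans ?_
  refine (sum_mul_sq_le_sq_mul_sq _ _ _).trans (le_of_eq ?_)
  rw [parseval D hg ht]
  have := sum_sq_fiber D hg
  have h3 : ∑ x ∈ range g, (#{d ∈ D | d % g = x} : ℝ) ^ 2 = N D g := by exact_mod_cast this
  rw [h3]; ring

/-- fourth root -/
noncomputable def rt (g : ℕ) : ℝ := √(√(g : ℝ))

lemma rt_pow (g : ℕ) : rt g ^ 4 = g := by
  unfold rt
  rw [show (4 : ℕ) = 2 * 2 from rfl, pow_mul, Real.sq_sqrt (Real.sqrt_nonneg _),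
    Real.sq_sqrt (Nat.cast_nonneg _)]

lemma rt_pos {g : ℕ} (hg : 0 < g) : 0 < rt g := by unfold rt; positivity

lemma rt_mul (a b : ℕ) : rt (a * b) = rt a * rt b := by
  unfold rt; push_cast
  rw [Real.sqrt_mul (Nat.cast_nonneg _), Real.sqrt_mul (Real.sqrt_nonneg _)]

/-- `g` is a good modulus for `D` -/
def Good (D : Finset ℕ) (g : ℕ) : Prop := (N D g : ℝ) * rt g ^ 3 ≤ (#D : ℝ) ^ 2

lemma bilinear' (D : Finset ℕ) {g : ℕ} (hg : 0 < g) {t : ℕ} (ht : Nat.Coprime g t) (h : Good D g) :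
    ‖∑ p ∈ D ×ˢ D, e g (t * (p.1 * p.2))‖ ^ 12 ≤ ((#D : ℝ) ^ 2) ^ 12 / (g : ℝ) ^ 3 := by
  have hr := rt_pos hg
  have h1 := bilinear D hg ht
  set F := ‖∑ p ∈ D ×ˢ D, e g (t * (p.1 * p.2))‖
  have h2 : F ^ 2 * rt g ^ 2 ≤ ((#D : ℝ) ^ 2) ^ 2 := by
    have h3 : ((N D g : ℝ) * rt g ^ 3) ^ 2 ≤ ((#D : ℝ) ^ 2) ^ 2 :=
      pow_le_pow_left₀ (by positivity) h 2
    refine le_trans ?_ h3
    calc F ^ 2 * rt g ^ 2 ≤ (g * (N D g : ℝ) ^ 2) * rt g ^ 2 := by gcongr
      _ = _ := by rw [← rt_pow g]; ring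
  have h4 := pow_le_pow_left₀ (by positivity) h2 6
  rw [le_div_iff₀ (by positivity), ← rt_pow g]
  calc F ^ 12 * (rt g ^ 4) ^ 3 = (F ^ 2 * rt g ^ 2) ^ 6 := by ring
    _ ≤ _ := h4
    _ = _ := by ring

lemma sum_gcd_le {m : ℕ} (hm : 0 < m) :
    ∑ t ∈ (range m).erase 0, (1 : ℝ) / ((m / m.gcd t : ℕ) : ℝ) ^ 3 < 1 := by
  have h1 : ∑ t ∈ (range m).erase 0, (1 : ℝ) / ((m / m.gcd t : ℕ) : ℝ) ^ 3 ≤
      ∑ g ∈ Ioc 1 m, ((g : ℝ) ^ 2)⁻¹ := by
    rw [← sum_fiberwise_of_maps_to (g := fun t => m / m.gcd t) (t := Ioc 1 m)]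
    · refine sum_le_sum fun g hg => ?_
      have hg1 := (mem_Ioc.1 hg).1
      have hg' : (0 : ℝ) < g := by exact_mod_cast (by omega : 0 < g)
      rw [sum_congr rfl (g := fun _ => (1 : ℝ) / (g : ℝ) ^ 3)
        (fun t ht => by rw [(mem_filter.1 ht).2]), sum_const, nsmul_eq_mul]
      have hc : #{t ∈ (range m).erase 0 | m / m.gcd t = g} ≤ g := by
        calc _ ≤ #((range g).image (fun u => u * (m / g))) := by
              apply card_le_card
              intro t ht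
              obtain ⟨ht1, ht2⟩ := mem_filter.1 ht
              have htm := mem_range.1 (mem_of_mem_erase ht1)
              have hd := Nat.gcd_dvd_left m t
              have hpos : 0 < m.gcd t := Nat.gcd_pos_of_pos_left t hm
              have hmg : m / g = m.gcd t := by
                rw [← ht2, Nat.div_div_self hd hm.ne']
              refine mem_image.2 ⟨t / m.gcd t, mem_range.2 ?_, ?_⟩
              · rw [← ht2]
                exact Nat.div_lt_div_of_lt_of_dvd hd htm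
              · rw [hmg, Nat.div_mul_cancel (Nat.gcd_dvd_right m t)]
          _ ≤ _ := card_image_le.trans (by simp)
      have hc' : (#{t ∈ (range m).erase 0 | m / m.gcd t = g} : ℝ) ≤ g := by exact_mod_cast hc
      calc _ ≤ (g : ℝ) * (1 / (g : ℝ) ^ 3) := by gcongr
        _ = _ := by field_simp
    · intro t ht
      have ht0 := (mem_erase.1 ht).1
      have htm := mem_range.1 (mem_of_mem_erase ht)
      have hd := Nat.gcd_dvd_left m t
      have hle : m.gcd t ≤ t := Nat.gcd_le_right m (Nat.pos_of_ne_zero ht0)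
      refine mem_Ioc.2 ⟨?_, Nat.div_le_self _ _⟩
      obtain ⟨k, hk⟩ := hd
      have hpos : 0 < m.gcd t := Nat.gcd_pos_of_pos_left t hm
      have : m / m.gcd t = k := by
        conv_lhs => rw [hk]
        rw [← hk]
        exact Nat.div_eq_of_eq_mul_right hpos hk
      rw [this]
      by_contra hk1
      have : k ≤ 1 := by omega
      nlinarith
  have h2 := sum_Ioc_inv_sq_le_sub (α := ℝ) (k := 1) (n := m) one_ne_zero hm
  have h3 : (0 : ℝ) < (m : ℝ)⁻¹ := by positivity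
  simp only [Nat.cast_one, inv_one] at h2
  linarith

theorem zero_sum (D : Finset ℕ) (hD : D.Nonempty) {m : ℕ} (hm : 0 < m)
    (h : ∀ g, g ∣ m → 1 < g → Good D g) :
    ∃ f : Fin 12 → ℕ × ℕ, (∀ i, f i ∈ D ×ˢ D) ∧ m ∣ ∑ i, (f i).1 * (f i).2 := by
  by_contra hcon
  push Not at hcon
  have h1 : ∑ t ∈ range m, (∑ p ∈ D ×ˢ D, e m (t * (p.1 * p.2))) ^ 12 = 0 := by
    have : ∀ t : ℕ, (∑ p ∈ D ×ˢ D, e m (t * (p.1 * p.2))) ^ 12 =
        ∑ f ∈ Fintype.piFinset (fun _ : Fin 12 => D ×ˢ D),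
          e m (t * ((∑ i, (f i).1 * (f i).2 : ℕ) : ℤ)) := by
      intro t
      rw [← Fin.prod_const, prod_univ_sum]
      refine sum_congr rfl fun f _ => ?_
      push_cast
      rw [mul_sum, e_sum]
    simp_rw [this]
    rw [sum_comm]
    refine sum_eq_zero fun f hf => ?_
    rw [sum_e hm, if_neg]
    rw [Int.natCast_dvd_natCast]
    exact hcon f (Fintype.mem_piFinset.1 hf)
  rw [← add_sum_erase _ _ (mem_range.2 hm)] at h1
  simp only [Nat.cast_zero, zero_mul, e_zero, sum_const, card_product, nsmul_eq_mul, mul_one] at h1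
  have hDpos : (0 : ℝ) < #D := by exact_mod_cast hD.card_pos
  have h2 : ‖∑ t ∈ (range m).erase 0, (∑ p ∈ D ×ˢ D, e m (t * (p.1 * p.2))) ^ 12‖ <
      ((#D : ℝ) ^ 2) ^ 12 := by
    refine (norm_sum_le _ _).trans_lt ?_
    calc _ ≤ ∑ t ∈ (range m).erase 0, ((#D : ℝ) ^ 2) ^ 12 * (1 / ((m / m.gcd t : ℕ) : ℝ) ^ 3) := by
          refine sum_le_sum fun t ht => ?_
          have ht0 := (mem_erase.1 ht).1
          have htm := mem_range.1 (mem_of_mem_erase ht)
          have hpos : 0 < m.gcd t := Nat.gcd_pos_of_pos_left t hm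
          have hcop := Nat.coprime_div_gcd_div_gcd hpos
          have hm' := Nat.mul_div_cancel' (Nat.gcd_dvd_left m t)
          have ht' := Nat.mul_div_cancel' (Nat.gcd_dvd_right m t)
          have hle : m.gcd t ≤ t := Nat.gcd_le_right m (Nat.pos_of_ne_zero ht0)
          generalize m.gcd t = c at *
          generalize m / c = g at *
          generalize t / c = u at *
          have hg1 : 1 < g := by
            by_contra hg1
            have : g ≤ 1 := by omega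
            nlinarith
          have hred : ∀ p : ℕ × ℕ, e m (t * (p.1 * p.2)) = e g (u * (p.1 * p.2)) := by
            intro p
            rw [← hm', ← ht', ← e_reduce hpos (g := g)]
            congr 1; push_cast; ring
          simp_rw [hred]
          rw [norm_pow, mul_one_div]
          exact bilinear' D (by omega) hcop (h g (Dvd.intro_left _ hm') hg1)
      _ < _ := by
          rw [← mul_sum]
          exact mul_lt_of_lt_one_right (by positivity) (sum_gcd_le hm)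
  rw [eq_neg_of_add_eq_zero_right h1, norm_neg, norm_pow, Complex.norm_natCast] at h2
  push_cast at h2
  rw [← pow_two] at h2
  exact lt_irrefl _ h2

end Crest.Agent.H0025
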